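import Vale.Agent.P314.Trunc

namespace Vale.Agent.Results.P314.ExplicitPoint

/-- Noncommutative formulas in the variables x_i, i : Fin n, over F. -/
inductive Formula (F : Type) (n : ℕ) : Type
  | var : Fin n → Formula F n
  | const : F → Formula F n
  | add : Formula F n → Formula F n → Formula F n
  | mul : Formula F n → Formula F n → Formula F n

/-- Size: the number of vertices, leaves included. -/
def Formula.size {F : Type} {n : ℕ} : Formula F n → ℕ
  | .var _ => 1
  | .const _ => 1
  | .add p q => p.size + q.size + 1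
  | .mul p q => p.size + q.size + 1

/-- The polynomial in the free associative algebra that a formula computes. -/
noncomputable def Formula.poly {F : Type} [Field F] {n : ℕ} : Formula F n → FreeAlgebra F (Fin n)
  | .var i => FreeAlgebra.ι F i
  | .const a => algebraMap F (FreeAlgebra F (Fin n)) a
  | .add p q => p.poly + q.poly
  | .mul p q => p.poly * q.poly

/-- N = 3 (n+1) (s+1)^3. -/
def bigN (n s : ℕ) : ℕ := 3 * (n + 1) * (s + 1) ^ 3

open Classical in
/-- The explicit 0/1 matrices of dimension N * N^2: with K = N^2, entry (r, c) of the i-th matrix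
is 1 exactly when c / K < r / K, (r / K - c / K - 1) mod n = i, c mod K ≤ r mod K and
r / K divides r mod K - c mod K. -/
noncomputable def point (F : Type) [Field F] (n s : ℕ) (i : Fin n) :
    Matrix (Fin (bigN n s * bigN n s ^ 2)) (Fin (bigN n s * bigN n s ^ 2)) F :=
  fun r c =>
    if (c : ℕ) / bigN n s ^ 2 < (r : ℕ) / bigN n s ^ 2 ∧
      ((r : ℕ) / bigN n s ^ 2 - (c : ℕ) / bigN n s ^ 2 - 1) % n = (i : ℕ) ∧
      (c : ℕ) % bigN n s ^ 2 ≤ (r : ℕ) % bigN n s ^ 2 ∧
      (r : ℕ) / bigN n s ^ 2 ∣ (r : ℕ) % bigN n s ^ 2 - (c : ℕ) % bigN n s ^ 2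
    then 1 else 0

lemma small {F : Type} [Field F] {n : ℕ} (p : Formula F n) :
    Vale.Agent.P314.Small p.poly p.size := by
  induction p with
  | var i => exact Vale.Agent.P314.Small.var i
  | const a => exact (Vale.Agent.P314.Small.const a).mono (Nat.zero_le _)
  | add p q hp hq => exact (hp.add hq).mono (Nat.le_succ _)
  | mul p q hp hq => exact (hp.mul hq).mono (Nat.le_succ _)

theorem result (F : Type) [Field F] (n s : ℕ) (p : Formula F n) (hs : p.size ≤ s)
    (hp : p.poly ≠ 0) : FreeAlgebra.lift F (point F n s) p.poly ≠ 0 := by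
  have e : point F n s = Vale.Agent.P314.Tm F n (bigN n s) (bigN n s ^ 2) := by
    funext i r c
    unfold point Vale.Agent.P314.Tm
    exact if_congr Iff.rfl rfl rfl
  rw [e]
  exact Vale.Agent.P314.hit le_rfl (by rw [sq]; exact le_rfl) ((small p).mono hs) hp

end Vale.Agent.Results.P314.ExplicitPoint
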