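import Vale.Agent.P314.Prg

namespace Vale.Agent.Results.P314.PolyTime

/-- Noncommutative formulas in the variables x_i, i : Fin n, over F. -/
inductive Formula (F : Type) (n : ℕ) : Type
  | var : Fin n → Formula F n
  | const : F → Formula F n
  | add : Formula F n → Formula F n → Formula F n
  | mul : Formula F n → Formula F n → Formula F n

/-- Size: the number of vertices, leaves included. -/
def Formula.size {F : Type} {n : ℕ} : Formula F n → ℕ
  | .var _ => 1
  | .const _ => 1
  | .add p q => p.size + q.size + 1
  | .mul p q => p.size + q.size + 1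

/-- The polynomial in the free associative algebra that a formula computes. -/
noncomputable def Formula.poly {F : Type} [Field F] {n : ℕ} : Formula F n → FreeAlgebra F (Fin n)
  | .var i => FreeAlgebra.ι F i
  | .const a => algebraMap F (FreeAlgebra F (Fin n)) a
  | .add p q => p.poly + q.poly
  | .mul p q => p.poly * q.poly

/-- The input (n, s): n in unary, a separator, s in unary (length n + s + 1). -/
def encodeInput (x : ℕ × ℕ) : List (Option Bool) :=
  List.replicate x.1 (some true) ++ none :: List.replicate x.2 (some true)

/-- The output: the dimension d in unary, a separator, then all entries of T_1, ..., T_n in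
row-major order, each written in the binary encoding e and followed by a separator. -/
def encodeTuple {F : Type} (e : F → List Bool) {n d : ℕ}
    (T : Fin n → Matrix (Fin d) (Fin d) F) : List (Option Bool) :=
  List.replicate d (some true) ++ none ::
    (List.finRange n).flatMap fun i : Fin n => (List.finRange d).flatMap fun r : Fin d =>
      (List.finRange d).flatMap fun c : Fin d => (e (T i r c)).map some ++ [none]

lemma small {F : Type} [Field F] {n : ℕ} (p : Formula F n) :
    Vale.Agent.P314.Small p.poly p.size := by
  induction p with
  | var i => exact Vale.Agent.P314.Small.var i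
  | const a => exact (Vale.Agent.P314.Small.const a).mono (Nat.zero_le _)
  | add p q hp hq => exact (hp.add hq).mono (Nat.le_succ _)
  | mul p q hp hq => exact (hp.mul hq).mono (Nat.le_succ _)

theorem result (F : Type) [Field F] :
    ∃ (d : ℕ → ℕ → ℕ) (T : ∀ n s : ℕ, Fin n → Matrix (Fin (d n s)) (Fin (d n s)) F),
      (∀ e : F → List Bool,
        ∃ M : Turing.TM2ComputableInPolyTime encodeInput id
            (fun x : ℕ × ℕ => encodeTuple e (T x.1 x.2)),
          ∀ k, Finite (M.tm.Γ k)) ∧
      ∀ (n s : ℕ) (p : Formula F n), p.size ≤ s → p.poly ≠ 0 →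
        FreeAlgebra.lift F (T n s) p.poly ≠ 0 := by
  refine ⟨fun n s => (n + s + 3) ^ 5 * (n + s + 3) ^ 10,
    fun n s => Vale.Agent.P314.Tm F n _ _, fun e => ?_, fun n s p hs hp => ?_⟩
  · exact Vale.Agent.P314.poly_tm
      (Vale.Agent.P314.prog ((e 0).map some ++ [none]) ((e 1).map some ++ [none]))
      (Vale.Agent.P314.wf_prog _ _) (v0 := 0) (v1 := 1) (by decide) _ fun x => by
        rw [Vale.Agent.P314.run_prog,
          Vale.Agent.P314.outp_eq (fun a : F => (e a).map some ++ [none])]
        rfl
  · refine Vale.Agent.P314.hit ?_ (by rw [← pow_add]) ((small p).mono hs) hp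
    calc 3 * (n + 1) * (s + 1) ^ 3 ≤ (n + s + 3) * (n + s + 3) * (n + s + 3) ^ 3 := by
          gcongr <;> omega
      _ = _ := by ring

end Vale.Agent.Results.P314.PolyTime
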